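import Mathlib
import Vale.Agent.Lib.P243.R3.Defs
import Vale.Agent.Lib.P243.R3.Defs4
open Set

/-!
# P243, `r_3 > 1/3`, module M4 (job J17): two disjoint star chords force three facets

If two chords with the star property have four distinct endpoints, then every boundary point
off the four lines joining an endpoint of the first chord to an endpoint of the second one
lies in a facet plane; since the boundary is not covered by two planes and four lines, there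
are three facets in pairwise distinct planes.

Second copy (the first one is `helper40/ThreeFacets.lean`); the declarations live in the
namespace `H86` so that the two files never clash.
-/

namespace Vale.Agent.Lib.P243.R3.H86

/-- A boundary point `x` off the line through `a1` and `a2` lies in a facet plane, as soon as
the segment from `a2` to the midpoint of `a1` and `x` lies in the boundary. -/
theorem M4d_facet_through {K : Set E3} (hK : Body K)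
    (hsup : ∀ a b : E3, segment ℝ a b ⊆ frontier K →
      ∃ f : E3 →L[ℝ] ℝ, f ≠ 0 ∧ (∀ k ∈ K, f k ≤ f a) ∧ f b = f a)
    {a1 a2 x : E3} (ha1 : a1 ∈ K) (ha2 : a2 ∈ K) (hne : a1 ≠ a2) (hx : x ∈ frontier K)
    (hline : ∀ t : ℝ, x ≠ a1 + t • (a2 - a1))
    (hs2 : segment ℝ a2 (midpoint ℝ a1 x) ⊆ frontier K) :
    ∃ (f : E3 →L[ℝ] ℝ) (M : ℝ), Facet K f M ∧ f x = M := by
  have hclosed : IsClosed K := hK.compact.isClosed
  have hxK : x ∈ K := hclosed.frontier_subset hx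
  obtain ⟨f, hf0, hfle, hfa2⟩ := hsup (midpoint ℝ a1 x) a2 (by rw [segment_symm]; exact hs2)
  have hmid : f (midpoint ℝ a1 x) = (f a1 + f x) / 2 := by
    rw [midpoint_eq_smul_add, map_smul, map_add, smul_eq_mul]
    simp only [invOf_eq_inv]
    ring
  have h1 := hfle a1 ha1
  have h2 := hfle x hxK
  have hfa1 : f a1 = f (midpoint ℝ a1 x) := by linarith
  have hfx : f x = f (midpoint ℝ a1 x) := by linarith
  refine ⟨f, f (midpoint ℝ a1 x),
    ⟨hf0, hfle, a1, a2, x, ha1, ha2, hxK, hfa1, hfa2, hfx, ?_⟩, hfx⟩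
  rw [LinearIndependent.pair_iff]
  intro s t hst
  by_cases ht : t = 0
  · subst ht
    rw [zero_smul, add_zero] at hst
    rcases smul_eq_zero.mp hst with h | h
    · exact ⟨h, rfl⟩
    · exact absurd (sub_eq_zero.mp h).symm hne
  · exfalso
    apply hline (-s / t)
    have h3 : t • (x - a1) = -(s • (a2 - a1)) := by
      rw [eq_neg_iff_add_eq_zero, add_comm]
      exact hst
    have h4 : x - a1 = (-s / t) • (a2 - a1) := by
      have h5 : t⁻¹ • (t • (x - a1)) = t⁻¹ • (-(s • (a2 - a1))) := by rw [h3]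
      rw [smul_smul, inv_mul_cancel₀ ht, one_smul] at h5
      rw [h5, neg_div, neg_smul, div_eq_inv_mul, mul_smul, smul_neg]
    rw [← h4]
    abel

/-- **Job J17.** Two star chords with four distinct endpoints force three facets in pairwise
distinct planes. -/
theorem M4d_three_facets {K : Set E3} (hK : Body K)
    (hsup : ∀ a b : E3, segment ℝ a b ⊆ frontier K →
      ∃ f : E3 →L[ℝ] ℝ, f ≠ 0 ∧ (∀ k ∈ K, f k ≤ f a) ∧ f b = f a)
    (hcov : ∀ f1 f2 : E3 →L[ℝ] ℝ, f1 ≠ 0 → f2 ≠ 0 → ∀ (M1 M2 : ℝ) (a d : Fin 4 → E3),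
      ∃ x ∈ frontier K, f1 x ≠ M1 ∧ f2 x ≠ M2 ∧ ∀ i, ∀ t : ℝ, x ≠ a i + t • d i)
    {p1 q1 p2 q2 : E3} (h1 : Star K p1 q1) (h2 : Star K p2 q2)
    (hd : p1 ≠ p2 ∧ p1 ≠ q2 ∧ q1 ≠ p2 ∧ q1 ≠ q2) :
    ∃ (f1 f2 f3 : E3 →L[ℝ] ℝ) (M1 M2 M3 : ℝ), Facet K f1 M1 ∧ Facet K f2 M2 ∧ Facet K f3 M3 ∧
      (∃ y, f2 y = M2 ∧ f1 y ≠ M1) ∧ (∃ y, f3 y = M3 ∧ f1 y ≠ M1 ∧ f2 y ≠ M2) := by
  obtain ⟨hp1, hq1, -, hstar1⟩ := h1
  obtain ⟨hp2, hq2, -, hstar2⟩ := h2
  obtain ⟨h11, h12, h21, h22⟩ := hd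
  have key : ∀ x ∈ frontier K,
      (∀ i : Fin 4, ∀ t : ℝ, x ≠ (![p1, p1, q1, q1] : Fin 4 → E3) i
        + t • (![p2 - p1, q2 - p1, p2 - q1, q2 - q1] : Fin 4 → E3) i) →
      ∃ (f : E3 →L[ℝ] ℝ) (M : ℝ), Facet K f M ∧ f x = M := by
    intro x hx hl
    have l0 : ∀ t : ℝ, x ≠ p1 + t • (p2 - p1) := fun t => hl 0 t
    have l1 : ∀ t : ℝ, x ≠ p1 + t • (q2 - p1) := fun t => hl 1 t
    have l2 : ∀ t : ℝ, x ≠ q1 + t • (p2 - q1) := fun t => hl 2 t
    have l3 : ∀ t : ℝ, x ≠ q1 + t • (q2 - q1) := fun t => hl 3 t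
    rcases hstar1 x hx with hs1 | hs1
    · have hmid : midpoint ℝ p1 x ∈ frontier K := hs1 (midpoint_mem_segment p1 x)
      rcases hstar2 _ hmid with hs2 | hs2
      · exact M4d_facet_through hK hsup hp1 hp2 h11 hx l0 hs2
      · exact M4d_facet_through hK hsup hp1 hq2 h12 hx l1 hs2
    · have hmid : midpoint ℝ q1 x ∈ frontier K := hs1 (midpoint_mem_segment q1 x)
      rcases hstar2 _ hmid with hs2 | hs2
      · exact M4d_facet_through hK hsup hq1 hp2 h21 hx l2 hs2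
      · exact M4d_facet_through hK hsup hq1 hq2 h22 hx l3 hs2
  have hf0 : (EuclideanSpace.proj (0 : Fin 3) : E3 →L[ℝ] ℝ) ≠ 0 := by
    intro h
    have h' := congrArg (fun g : E3 →L[ℝ] ℝ => g (EuclideanSpace.single (0 : Fin 3) (1 : ℝ))) h
    simp at h'
  obtain ⟨x1, hx1, -, -, hl1⟩ := hcov _ _ hf0 hf0 0 0 ![p1, p1, q1, q1]
    ![p2 - p1, q2 - p1, p2 - q1, q2 - q1]
  obtain ⟨f1, M1, hF1, -⟩ := key x1 hx1 hl1
  obtain ⟨x2, hx2, hx2a, -, hl2⟩ := hcov f1 f1 hF1.1 hF1.1 M1 M1 ![p1, p1, q1, q1]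
    ![p2 - p1, q2 - p1, p2 - q1, q2 - q1]
  obtain ⟨f2, M2, hF2, hf2x⟩ := key x2 hx2 hl2
  obtain ⟨x3, hx3, hx3a, hx3b, hl3⟩ := hcov f1 f2 hF1.1 hF2.1 M1 M2 ![p1, p1, q1, q1]
    ![p2 - p1, q2 - p1, p2 - q1, q2 - q1]
  obtain ⟨f3, M3, hF3, hf3x⟩ := key x3 hx3 hl3
  exact ⟨f1, f2, f3, M1, M2, M3, hF1, hF2, hF3, ⟨x2, hf2x, hx2a⟩, ⟨x3, hf3x, hx3a, hx3b⟩⟩

end Vale.Agent.Lib.P243.R3.H86
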